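import Vale.Agent.P092RA.Defs

/-!
P092, rank one, block A0, part EQ (helper18): the two piece estimates which are used.
-/

set_option linter.all false

open MeasureTheory Filter Topology
open scoped InnerProductSpace ENNReal

namespace Vale.Agent.P092RQ

open Vale.Agent.P092.H793.Re Vale.Agent.P092RG Vale.Agent.P092RA

variable {n : ℕ} {G : Type} [Group G] [TopologicalSpace G] {ρ : G →* SLn n} {w : Fin n → ℝ}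
  [IsTopologicalGroup G] [SecondCountableTopology G] [MeasurableSpace G] [BorelSpace G]

/-- **(PL1)** the piece of level `k` of a Fourier mode at the wall `κ₁ a_r κ₂` -/
def PL1 (h : R1 ρ w) (μ : Measure G) : Prop := ∃ C R : ℝ, 0 ≤ C ∧ 0 ≤ R ∧
  ∀ t : ℝ, 0 ≤ t → t ≤ 1 / 4 → ∀ κ₁ ∈ h.K, ∀ κ₂ ∈ h.K, ∀ r : ℝ, 0 ≤ r → ∀ k : ℝ, -1 ≤ k →
    k ≤ r + 1 → ∀ i : ℝ, 0 ≤ i → ∀ η : EE n, 1 + ‖η‖ ≤ Real.exp i → ∀ A : ℝ,
      Real.exp (-(r - k)) * ‖η‖ + t ≤ A → ∀ (Z : SN h.Y) (f : C(h.Y, ℂ)),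
        (∀ ξ, f ξ = ((Real.smoothTransition (gm h (κ₁ * h.a r * κ₂) ξ - k + 1) -
            Real.smoothTransition (gm h (κ₁ * h.a r * κ₂) ξ - k) : ℝ) : ℂ) *
          (act h t (κ₁ * h.a r * κ₂) (em (du h) η) ξ - (Real.exp (-(t * (r - 2 * k))) : ℂ) *
            em (du h) η ((κ₂⁻¹ * h.w0 : G) : h.Y))) →
        Z.p f ≤ C * Real.exp (h.Q * i / 2) * A * Real.exp (-(t * (r - k))) *
          bb h μ t Z (κ₁ * h.a k) (i + R)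

/-- **(PL2)** the cutoff of the levels above `k` -/
def PL2 (h : R1 ρ w) (μ : Measure G) : Prop := ∃ C R : ℝ, 0 ≤ C ∧ 0 ≤ R ∧
  ∀ t : ℝ, 0 ≤ t → t ≤ 1 / 4 → ∀ κ₁ ∈ h.K, ∀ κ₂ ∈ h.K, ∀ r : ℝ, 0 ≤ r → ∀ k : ℝ, 1 ≤ k →
    k ≤ r + 1 → ∀ (Z : SN h.Y) (f : C(h.Y, ℂ)),
      (∀ ξ, f ξ = (Real.smoothTransition (gm h (κ₁ * h.a r * κ₂) ξ - k + 1) : ℝ)) →
        Z.p f ≤ C * Real.exp (-(t * k)) * bb h μ t Z (κ₁ * h.a k) R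

end Vale.Agent.P092RQ
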