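import Vale.Agent.P092RQ.Defs
import Vale.Agent.P092RG.Pos

/-!
P092, rank one, block A0, part EQ (helper18): the dichotomy for the walls, the weighted energy.
-/

set_option linter.all false

open MeasureTheory Filter Topology
open scoped InnerProductSpace ENNReal

namespace Vale.Agent.P092RQ

open Vale.Agent.P092.H793.Re Vale.Agent.P092RG Vale.Agent.P092RA

variable {n : ℕ} {G : Type} [Group G] [TopologicalSpace G] {ρ : G →* SLn n} {w : Fin n → ℝ}
  (h : R1 ρ w)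

theorem dv_le_co (v : G) (ω : h.Y) : h.dv (h.pd v⁻¹) ω ≤ Real.exp (h.co v ω - h.rr v) := by
  have := h.dv_pd v⁻¹ (v • ω)
  rwa [inv_smul_smul, h.rr_inv, h.co_inv, show -(h.rr v + -h.co v ω) = h.co v ω - h.rr v by ring]
    at this

theorem co_le_dv : ∃ c : ℝ, 0 < c ∧ ∀ (y : G) (ζ : h.Y), c * Real.exp (h.co y ζ) ≤
    Real.exp (h.rr y) * h.dv (h.pd y⁻¹) ζ + Real.exp (-h.rr y) := by
  obtain ⟨c, hc, h2⟩ := h.two_corner
  refine ⟨c, hc, fun y ζ => ?_⟩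
  obtain ⟨k, hk, k', hk', e, e'⟩ := h.kak_pd y⁻¹
  obtain ⟨κ, hκ, rfl⟩ := h.exists_K ζ
  rw [h.rr_inv] at e
  have e2 : y * κ = k'⁻¹ * (h.a (-h.rr y) * (k⁻¹ * κ)) := by
    rw [h.a_neg]
    generalize h.a (h.rr y) = b at e
    rw [← inv_inv y, e]
    group
  have := h2 (h.a (-h.rr y) * (k⁻¹ * κ))
  rw [h.bd_a_mul, neg_neg, h.bd_w0_a_mul] at this
  rw [e', h.dv_K hk hκ, h.co_K _ hκ, e2, h.hs_K_mul (h.K.inv_mem hk')]
  have h3 := h.bd_K_le (h.K.mul_mem h.w0_mem (h.K.mul_mem (h.K.inv_mem hk) hκ))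
  nlinarith [Real.exp_pos (-h.rr y)]

/-- a point which is seen from `v y⁻¹` but not from `1` -/
theorem near_ray : ∃ C₁ D : ℝ, 0 ≤ C₁ ∧ ∀ (v y : G) (ζ : h.Y), -2 < bo h y ζ →
    h.co v ζ < h.rr v - 2 * C₁ → Real.exp (h.rr v + h.rr y - h.rr (v * y⁻¹)) ≤ D := by
  obtain ⟨c, hc, h1⟩ := co_le_dv h
  obtain ⟨C, hC, h2⟩ := h.dv_tri
  set c₀ := c * Real.exp (-2) / 2 with hc₀
  have p0 : 0 < c₀ := by positivity
  refine ⟨C / c₀, (C + 1) / c₀, by positivity, fun v y ζ hb hv => ?_⟩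
  have a1 : h.dv (h.pd v⁻¹) ζ ≤ c₀ / C := by
    refine (dv_le_co h v ζ).trans ((Real.exp_le_exp.2 (show _ ≤ -(C / c₀) by
      linarith [show 0 ≤ C / c₀ by positivity])).trans ?_)
    rw [Real.exp_neg, ← inv_div C c₀]
    exact inv_anti₀ (by positivity) (by linarith [Real.add_one_le_exp (C / c₀)])
  set δ := h.dv (h.pd v⁻¹) (h.pd y⁻¹)
  have a2 : h.dv (h.pd y⁻¹) ζ ≤ C * δ + c₀ := by
    have := h2 (h.pd y⁻¹) (h.pd v⁻¹) ζ
    rw [h.dv_comm (h.pd y⁻¹) (h.pd v⁻¹), mul_add] at this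
    have a3 := mul_le_mul_of_nonneg_left a1 hC.le
    rw [mul_div_cancel₀ _ hC.ne'] at a3
    linarith
  set r := h.rr v
  set s := h.rr y with hs
  set X := h.rr (v * y⁻¹)
  have a3 : Real.exp s * c₀ ≤ Real.exp s * (C * δ) + Real.exp (-s) := by
    have b1 : Real.exp (-2) * Real.exp s ≤ Real.exp (h.co y ζ) := by
      rw [← Real.exp_add]
      exact Real.exp_le_exp.2 (by unfold bo at hb; linarith)
    have b2 := mul_le_mul_of_nonneg_left b1 hc.le
    have b3 := mul_le_mul_of_nonneg_left a2 (Real.exp_pos s).le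
    have b4 := h1 y ζ
    rw [hc₀] at b3 ⊢
    linarith
  have a4 : Real.exp (r + s - X) * δ ≤ 1 := by
    have b1 := h.co_pd_le v y⁻¹
    rw [h.rr_inv] at b1
    refine (mul_le_mul_of_nonneg_left (dv_le_co h v _) (Real.exp_pos _).le).trans ?_
    rw [← Real.exp_add]
    exact Real.exp_le_one_iff.2 (by linarith)
  have a5 : Real.exp (r - X) * Real.exp (-s) ≤ 1 := by
    have b1 := h.rr_mul_le (v * y⁻¹) y
    rw [inv_mul_cancel_right] at b1
    rw [← Real.exp_add]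
    exact Real.exp_le_one_iff.2 (by linarith)
  have e : Real.exp (r + s - X) = Real.exp (r - X) * Real.exp s := by
    rw [← Real.exp_add]; congr 1; ring
  rw [le_div_iff₀ p0]
  rw [e] at a4 ⊢
  nlinarith [mul_le_mul_of_nonneg_left a3 (Real.exp_pos (r - X)).le,
    mul_le_mul_of_nonneg_left a4 hC.le]

/-- **the dichotomy** -/
theorem dich : ∃ C₁ c : ℝ, 0 ≤ C₁ ∧ 0 ≤ c ∧ ∀ κ ∈ h.K, ∀ κ' ∈ h.K, ∀ X : ℝ, 0 ≤ X → ∀ κ₁ ∈ h.K,
    ∀ κ₂ ∈ h.K, ∀ r : ℝ, 0 ≤ r →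
      (∀ j : ℝ, 0 ≤ j → j ≤ r + 1 → h.rr ((κ * h.a j)⁻¹ * (κ₁ * h.a j)) ≤ c) ∨
      (C₁ + 1 ≤ r ∧ ∀ ξ, -2 < bo h ((κ * h.a X * κ')⁻¹ * (κ₁ * h.a r * κ₂))
        ((κ₁ * h.a r * κ₂)⁻¹ • ξ) → r - C₁ ≤ gm h (κ₁ * h.a r * κ₂) ξ) := by
  obtain ⟨C₁, D, h0, h1⟩ := near_ray h
  obtain ⟨C, hC, h2⟩ := h.cosines
  refine ⟨C₁, 2 * C₁ + 4 + C * (Real.exp 2 * |D| + 3), h0, by positivity,
    fun κ hκ κ' hκ' X hX κ₁ hκ₁ κ₂ hκ₂ r hr => or_iff_not_imp_right.2 fun hn j j0 j1 => ?_⟩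
  have p1 : 0 ≤ C * (Real.exp 2 * |D| + 3) := by positivity
  by_cases hr' : C₁ + 1 ≤ r
  swap
  · have := h.rr_mul_le (κ * h.a j)⁻¹ (κ₁ * h.a j)
    rw [h.rr_inv, h.rr_K_mul hκ, h.rr_K_mul hκ₁, h.rr_a, abs_of_nonneg j0] at this
    linarith
  simp only [hr', true_and, not_forall, not_le] at hn
  obtain ⟨ξ, hb, hg⟩ := hn
  set v := κ₁ * h.a r * κ₂ with hv
  set x := κ * h.a X * κ' with hx
  have rv : h.rr v = r := h.rr_kak hκ₁ hκ₂ hr
  have a1 := h1 v (x⁻¹ * v) (v⁻¹ • ξ) hb (by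
    have := h.co_inv v (v⁻¹ • ξ)
    rw [smul_inv_smul] at this
    unfold gm at hg
    linarith)
  rw [show v * (x⁻¹ * v)⁻¹ = x by group, rv, h.rr_kak hκ hκ' hX] at a1
  have a2 := h.cosines_ge (κ⁻¹ * κ₁) X r
  have e : h.rr (h.a (-X) * (κ⁻¹ * κ₁) * h.a r) = h.rr (x⁻¹ * v) := by
    rw [← h.rr_K_mul (h.K.inv_mem hκ') (h.a (-X) * _ * _), ← h.rr_mul_K (κ'⁻¹ * _) hκ₂, hx, hv,
      h.a_neg]
    congr 1
    group
  rw [e] at a2
  have a3 : Real.exp (j + j) * h.bd (κ⁻¹ * κ₁) ≤ Real.exp 2 * |D| := by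
    have b1 : Real.exp (j + j) ≤ Real.exp 2 * Real.exp (r - X) * Real.exp (X + r) := by
      rw [← Real.exp_add, ← Real.exp_add]
      exact Real.exp_le_exp.2 (by linarith)
    have b2 : Real.exp (r - X) * Real.exp (h.rr (x⁻¹ * v)) ≤ |D| := by
      rw [← Real.exp_add, show r - X + h.rr (x⁻¹ * v) = r + h.rr (x⁻¹ * v) - X by ring]
      exact a1.trans (le_abs_self D)
    calc _ ≤ Real.exp 2 * Real.exp (r - X) * Real.exp (X + r) * h.bd (κ⁻¹ * κ₁) :=
          mul_le_mul_of_nonneg_right b1 (h.bd_nonneg _)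
      _ = Real.exp 2 * (Real.exp (r - X) * (Real.exp (X + r) * h.bd (κ⁻¹ * κ₁))) := by ring
      _ ≤ Real.exp 2 * (Real.exp (r - X) * Real.exp (h.rr (x⁻¹ * v))) := by gcongr
      _ ≤ _ := by gcongr
  have a4 := h2 _ (h.K.mul_mem (h.K.inv_mem hκ) hκ₁) j j
  have a5 : Real.exp (-j - j) ≤ 1 := Real.exp_le_one_iff.2 (by linarith)
  rw [sub_self, Real.exp_zero] at a4
  rw [show (κ * h.a j)⁻¹ * (κ₁ * h.a j) = h.a (-j) * (κ⁻¹ * κ₁) * h.a j by rw [h.a_neg]; group]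
  have a6 := a4.trans (mul_le_mul_of_nonneg_left
    (show _ ≤ Real.exp 2 * |D| + 3 by linarith) hC.le)
  linarith [Real.add_one_le_exp (h.rr (h.a (-j) * (κ⁻¹ * κ₁) * h.a j))]

/-- geometric sums, uniformly in the rate -/
theorem tsum_geo {a : ℝ} (h0 : 0 < a) (h1 : a ≤ 1) :
    ∑' m : ℕ, ENNReal.ofReal (a * Real.exp (-(a * m))) ≤ 2 := by
  have l1 : Real.exp (-a) < 1 := Real.exp_lt_one_iff.2 (by linarith)
  have hs := (hasSum_geometric_of_lt_one (Real.exp_pos (-a)).le l1).mul_left a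
  have e : ∀ m : ℕ, a * Real.exp (-(a * m)) = a * Real.exp (-a) ^ m := fun m => by
    rw [← Real.exp_nat_mul]; congr 2; ring
  simp only [e]
  rw [← ENNReal.ofReal_tsum_of_nonneg (fun m => by positivity) hs.summable, hs.tsum_eq,
    ← ENNReal.ofReal_ofNat]
  refine ENNReal.ofReal_le_ofReal ?_
  rw [← div_eq_mul_inv, div_le_iff₀ (by linarith)]
  have b1 : Real.exp (-a) * (a + 1) ≤ 1 := by
    have := mul_le_mul_of_nonneg_left (Real.add_one_le_exp a) (Real.exp_pos (-a)).le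
    rwa [← Real.exp_add, neg_add_cancel, Real.exp_zero] at this
  nlinarith [Real.exp_pos (-a)]

theorem sum_geo {a : ℝ} (h0 : 0 < a) (h1 : a ≤ 1) (s : Finset ℕ) (K : ℕ) (hs : ∀ j ∈ s, j ≤ K) :
    ∑ j ∈ s, a * Real.exp (-(a * (K - j : ℕ))) ≤ 2 := by
  rw [← ENNReal.ofReal_le_ofReal_iff zero_le_two, ENNReal.ofReal_ofNat,
    ENNReal.ofReal_sum_of_nonneg fun _ _ => by positivity]
  refine le_trans ?_ (tsum_geo h0 h1)
  rw [← Finset.sum_image (s := s) (g := fun j => K - j)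
    (f := fun m : ℕ => ENNReal.ofReal (a * Real.exp (-(a * m))))
    fun i hi j hj e => by have := hs i hi; have := hs j hj; simp only at e; omega]
  exact ENNReal.sum_le_tsum _

theorem tsum_eo : ∑' m : ℕ, eo (-(m : ℝ)) ≤ 2 := by
  simpa only [one_mul, eo] using tsum_geo one_pos le_rfl

theorem tsum_abs (s : ℝ) (hs : 0 ≤ s) : ∑' k : ℕ, eo (-|s - k|) ≤ eo 1 * 4 := by
  set f : ℤ → ℝ≥0∞ := fun z => eo 1 * eo (-|(z : ℝ)|)
  calc _ ≤ ∑' k : ℕ, f ((k : ℤ) - ⌊s⌋₊) := ENNReal.tsum_le_tsum fun k => by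
        simp only [f, ← eo_add]
        refine eo_mono ?_
        push_cast
        have a1 := abs_sub_le (k : ℝ) s ⌊s⌋₊
        have a2 : |s - ⌊s⌋₊| ≤ 1 :=
          abs_le.2 ⟨by linarith [Nat.floor_le hs], by linarith [Nat.lt_floor_add_one s]⟩
        rw [abs_sub_comm (k : ℝ) s] at a1
        linarith
    _ ≤ ∑' z, f z := ENNReal.tsum_comp_le_tsum_of_injective
        (fun a b e => by simpa using e) f
    _ ≤ _ := by
        rw [ENNReal.tsum_mul_left, tsum_of_nat_of_neg_add_one ENNReal.summable ENNReal.summable]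
        refine mul_le_mul_right (le_trans (add_le_add (le_trans ?_ tsum_eo) (le_trans ?_ tsum_eo))
          (by norm_num)) _
        · exact ENNReal.tsum_le_tsum fun m => eo_mono (by simp)
        · refine ENNReal.tsum_le_tsum fun m => eo_mono ?_
          push_cast
          rw [abs_neg, abs_of_nonneg (by positivity)]
          linarith

/-- the Schur test along a ray -/
theorem conv_le (k B : ℕ → ℝ≥0∞) :
    ∑' m : ℕ, ∑ j ∈ Finset.range (m + 1 + 1), k (m + 1 - j) * B j ≤ (∑' m, k m) * ∑' j, B j := by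
  calc _ ≤ ∑' K : ℕ, ∑ j ∈ Finset.range (K + 1), k (K - j) * B j :=
        ENNReal.tsum_comp_le_tsum_of_injective (add_left_injective 1)
          fun K => ∑ j ∈ Finset.range (K + 1), k (K - j) * B j
    _ ≤ ∑' K : ℕ, ∑' j, (if j ≤ K then k (K - j) else 0) * B j :=
        ENNReal.tsum_le_tsum fun K => le_trans (Finset.sum_le_sum fun j hj => by
          rw [if_pos (Nat.lt_succ_iff.1 (Finset.mem_range.1 hj))]) (ENNReal.sum_le_tsum _)
    _ = _ := by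
        rw [ENNReal.tsum_comm, ← ENNReal.tsum_mul_left]
        refine tsum_congr fun j => ?_
        rw [ENNReal.tsum_mul_right, ← (add_left_injective j).tsum_eq
          (f := fun K => if j ≤ K then k (K - j) else 0) fun K hK => ?_]
        · simp
        · have : j ≤ K := by by_contra hc; exact hK (if_neg hc)
          exact ⟨K - j, Nat.sub_add_cancel this⟩

variable [IsTopologicalGroup G] [SecondCountableTopology G] [MeasurableSpace G] [BorelSpace G]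
  [LocallyCompactSpace G] (μ : Measure G) [μ.IsHaarMeasure] (t : ℝ) (Z : SN h.Y)

/-- the total energy -/
noncomputable def Nq : ℝ≥0∞ := ∫⁻ v, ENNReal.ofReal (qw h t v Z) ∂μ

/-- the weighted energy -/
noncomputable def Bq (y : G) : ℝ≥0∞ :=
  ∫⁻ v, eo (-((h.Q + 1) * h.rr (y⁻¹ * v))) * ENNReal.ofReal (qw h t v Z) ∂μ

/-- its square root -/
noncomputable def bw (y : G) : ℝ := Real.sqrt (Bq h μ t Z y).toReal

theorem bw_nonneg (y : G) : 0 ≤ bw h μ t Z y := Real.sqrt_nonneg _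

theorem bw_sq (y : G) : ENNReal.ofReal (bw h μ t Z y ^ 2) ≤ Bq h μ t Z y := by
  rw [bw, Real.sq_sqrt ENNReal.toReal_nonneg]
  exact ENNReal.ofReal_toReal_le

theorem meas_ker : Measurable fun p : G × G =>
    eo (-((h.Q + 1) * h.rr (p.1⁻¹ * p.2))) * ENNReal.ofReal (qw h t p.2 Z) :=
  (measurable_eo.comp ((h.measurable_rr.comp (by fun_prop)).const_mul _).neg).mul
    ((measurable_qw h t Z).comp measurable_snd).ennreal_ofReal

theorem meas_Bq : Measurable (Bq h μ t Z) := (meas_ker h t Z).lintegral_prod_right'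

theorem Bq_le (y : G) : Bq h μ t Z y ≤ Nq h μ t Z := lintegral_mono fun v =>
  mul_le_of_le_one_left' (eo_zero ▸ eo_mono (neg_nonpos.2 (mul_nonneg (by positivity)
    (h.rr_nonneg _))))

theorem bb_le (h0 : Nq h μ t Z ≠ ∞) {y y' : G} {c : ℝ} (hc : h.rr (y⁻¹ * y') ≤ c) (R : ℝ) :
    bb h μ t Z y' R ≤ Real.exp ((h.Q + 1) * (R + c) / 2) * bw h μ t Z y := by
  have hS : MeasurableSet {v | h.rr (y'⁻¹ * v) ≤ R} :=
    measurableSet_le (h.measurable_rr.comp (by fun_prop)) measurable_const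
  have a1 : ∫⁻ v in {v | h.rr (y'⁻¹ * v) ≤ R}, ENNReal.ofReal (qw h t v Z) ∂μ ≤
      eo ((h.Q + 1) * (R + c)) * Bq h μ t Z y := by
    rw [Bq, ← lintegral_const_mul' _ _ (eo_ne_top _)]
    refine (setLIntegral_mono' hS fun v hv => ?_).trans (setLIntegral_le_lintegral _ _)
    rw [← mul_assoc, ← eo_add]
    refine le_mul_of_one_le_left' (eo_zero ▸ eo_mono ?_)
    have b1 := h.rr_mul_le (y⁻¹ * y') (y'⁻¹ * v)
    rw [show y⁻¹ * y' * (y'⁻¹ * v) = y⁻¹ * v by group] at b1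
    have b2 : h.rr (y'⁻¹ * v) ≤ R := hv
    nlinarith [h.Q_pos']
  rw [bb, bw, Real.exp_half, ← Real.sqrt_mul (Real.exp_pos _).le,
    integral_eq_lintegral_of_nonneg_ae (Eventually.of_forall fun v => qw_nonneg h t v Z)
      (measurable_qw h t Z).aestronglyMeasurable]
  refine Real.sqrt_le_sqrt ((ENNReal.toReal_mono (ENNReal.mul_ne_top (eo_ne_top _)
    (ne_top_of_le_ne_top h0 (Bq_le h μ t Z y))) a1).trans (le_of_eq ?_))
  rw [ENNReal.toReal_mul, eo, ENNReal.toReal_ofReal (Real.exp_pos _).le]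

theorem lint_balls (p : ℕ → G) (c : ℕ → ℝ) (F : ℕ → ℝ≥0∞) :
    ∫⁻ v, ∑' m, {v | h.rr ((p m)⁻¹ * v) ≤ c m}.indicator (fun _ => F m) v ∂μ =
      ∑' m, F m * μ {v | h.rr v ≤ c m} := by
  have hS : ∀ m, MeasurableSet {v | h.rr ((p m)⁻¹ * v) ≤ c m} := fun m =>
    measurableSet_le (h.measurable_rr.comp (by fun_prop)) measurable_const
  rw [lintegral_tsum fun m => (measurable_const.indicator (hS m)).aemeasurable]
  refine tsum_congr fun m => ?_
  rw [lintegral_indicator_const (hS m), ← measure_preimage_mul μ (p m)⁻¹ {v | h.rr v ≤ c m}]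
  rfl

theorem lint_Bq : ∃ c : ℝ, ∀ (t : ℝ) (Z : SN h.Y),
    ∫⁻ y, Bq h μ t Z y ∂μ ≤ eo c * Nq h μ t Z := by
  obtain ⟨C, hC⟩ := h.ball_le μ
  have a1 : ∫⁻ y, eo (-((h.Q + 1) * h.rr y)) ∂μ ≤ eo (C + h.Q + 1) := by
    refine (lintegral_mono fun y => ?_).trans ((lint_balls h μ (fun _ => 1) (fun m => m + 1)
      fun m => eo (-((h.Q + 1) * m))).le.trans ?_)
    · refine le_trans ?_ (ENNReal.le_tsum ⌊h.rr y⌋₊)
      rw [Set.indicator_of_mem (by
        simpa using (Nat.lt_floor_add_one (h.rr y)).le)]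
      exact eo_mono (by nlinarith [Nat.floor_le (h.rr_nonneg y), h.Q_pos'])
    · calc _ ≤ ∑' m : ℕ, eo (C + h.Q) * eo (-(m : ℝ)) := ENNReal.tsum_le_tsum fun m => by
            refine (mul_le_mul_right (hC _ (by positivity)) _).trans (le_of_eq ?_)
            simp only [← eo_add]; congr 1; ring
        _ ≤ eo (C + h.Q) * eo 1 := by
            rw [ENNReal.tsum_mul_left]
            refine mul_le_mul_right (tsum_eo.trans ?_) _
            rw [← ENNReal.ofReal_ofNat]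
            exact ENNReal.ofReal_le_ofReal (by linarith [Real.add_one_le_exp 1])
        _ = _ := (eo_add _ _).symm
  refine ⟨C + h.Q + 1, fun t Z => ?_⟩
  unfold Bq Nq
  rw [lintegral_lintegral_swap (meas_ker h t Z).aemeasurable,
    ← lintegral_const_mul' _ _ (eo_ne_top _)]
  refine lintegral_mono fun v => ?_
  rw [lintegral_mul_const' _ _ ENNReal.ofReal_ne_top]
  refine mul_le_mul_left (le_trans (le_of_eq ?_) a1) _
  rw [← lintegral_mul_left_eq_self (μ := μ) (fun y => eo (-((h.Q + 1) * h.rr y))) v⁻¹]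
  refine lintegral_congr fun y => ?_
  rw [← h.rr_inv (v⁻¹ * y), mul_inv_rev, inv_inv]

theorem tsum_Bq {κ : G} (hκ : κ ∈ h.K) :
    ∑' j : ℕ, Bq h μ t Z (κ * h.a j) ≤ eo 1 * 4 * Nq h μ t Z := by
  unfold Bq Nq
  rw [← lintegral_tsum (f := fun (j : ℕ) v => eo (-((h.Q + 1) * h.rr ((κ * h.a j)⁻¹ * v))) *
    ENNReal.ofReal (qw h t v Z)) fun j : ℕ => ((meas_ker h t Z).comp
    (measurable_prodMk_left (x := κ * h.a j))).aemeasurable, ← lintegral_const_mul' _ _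
      (ENNReal.mul_ne_top (eo_ne_top _) (by norm_num))]
  refine lintegral_mono fun v => ?_
  rw [ENNReal.tsum_mul_right]
  refine mul_le_mul_left (le_trans (ENNReal.tsum_le_tsum fun j => eo_mono ?_)
    (tsum_abs _ (h.rr_nonneg v))) _
  have a1 := h.abs_rr_mul_sub' (κ * h.a j) ((κ * h.a j)⁻¹ * v)
  rw [mul_inv_cancel_left, h.rr_K_mul hκ, h.rr_a, Nat.abs_cast] at a1
  nlinarith [h.Q_pos', h.rr_nonneg ((κ * h.a j)⁻¹ * v)]

end Vale.Agent.P092RQ
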