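import Vale.Agent.P092RQ.Geo
import Vale.Agent.P092RA.PLQ

/-!
P092, rank one, block A0, part EQ (helper18): the action is uniformly bounded for the norm.
-/

set_option linter.all false

open MeasureTheory Filter Topology
open scoped InnerProductSpace ENNReal

namespace Vale.Agent.P092RQ

open Vale.Agent.P092.H793.Re Vale.Agent.P092RG Vale.Agent.P092RA

variable {n : ℕ} {G : Type} [Group G] [TopologicalSpace G] {ρ : G →* SLn n} {w : Fin n → ℝ}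
  (h : R1 ρ w) [IsTopologicalGroup G] [SecondCountableTopology G] [MeasurableSpace G]
  [BorelSpace G] [LocallyCompactSpace G] (μ : Measure G) [μ.IsHaarMeasure]

/-- the cutoff of the levels above `j` -/
noncomputable def Om (v : G) (j : ℝ) : C(h.Y, ℂ) :=
  ⟨fun ξ => (Real.smoothTransition (gm h v ξ - j + 1) : ℝ), Complex.continuous_ofReal.comp
    (Real.smoothTransition.continuous.comp
      (((continuous_gm h v).sub continuous_const).add continuous_const))⟩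

theorem Om_apply (v : G) (j : ℝ) (ξ : h.Y) :
    Om h v j ξ = (Real.smoothTransition (gm h v ξ - j + 1) : ℝ) := rfl

theorem Om_zero (v : G) {j : ℝ} (hj : h.rr v + 1 ≤ j) : Om h v j = 0 := by
  ext ξ
  rw [Om_apply, Real.smoothTransition.zero_of_nonpos (by linarith [gm_le h v ξ])]
  rfl

theorem Om_one {v : G} {j : ℝ} {ξ : h.Y} (hj : j ≤ gm h v ξ) : Om h v j ξ = 1 := by
  rw [Om_apply, Real.smoothTransition.one_of_one_le (by linarith)]
  rfl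

theorem norm_gg (l a : ℝ) (η' η u : EE n) : ‖gg l a η' η u‖ ≤ 1 := by
  rw [gg, norm_mul, norm_ee, mul_one, Complex.norm_real, Real.norm_eq_abs,
    abs_of_nonneg (ps_nonneg _ _)]
  exact ps_le _ _

/-- the part of `g` above level `j`, with the constant removed -/
noncomputable def UU (t : ℝ) (v : G) (g : C(h.Y, ℂ)) (e₀ : ℂ) (j : ℕ) : C(h.Y, ℂ) :=
  Om h v j * g - ((Real.exp (-(t * (h.rr v - 2 * j))) : ℝ) * e₀) • Om h v j

theorem pl2' : ∃ C R : ℝ, 0 ≤ C ∧ 0 ≤ R ∧ ∀ t : ℝ, 0 ≤ t → t ≤ 1 → ∀ Z : SN h.Y, ∀ κ ∈ h.K,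
    ∀ κ' ∈ h.K, ∀ r k : ℝ, 0 ≤ r → 0 ≤ k → Z.p (Om h (κ * h.a r * κ') k) ≤
      C * Real.exp (-(t * k)) * bb h μ t Z (κ * h.a k) R := by
  obtain ⟨C, R, hC, hR, h1⟩ := pl2 h μ
  refine ⟨C, R, hC, hR, fun t t0 t1 Z κ hκ κ' hκ' r k hr hk => ?_⟩
  by_cases e : k ≤ r + 1
  · exact h1 t t0 t1 Z κ hκ κ' hκ' r k _ hr (by linarith) e fun ξ => rfl
  · rw [Om_zero h _ (by rw [h.rr_kak hκ hκ' hr]; linarith), Z.zero]
    exact mul_nonneg (by positivity) (Real.sqrt_nonneg _)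

theorem ar1 {t S s m : ℝ} (t0 : 0 < t) (t1 : t ≤ 1 / 4) (S0 : 0 ≤ S) (h1 : m - 1 ≤ s)
    (h2 : -1 ≤ s) : (Real.exp (-s) * S + t) * Real.exp (-(t * s)) ≤
      Real.exp 2 * (S * Real.exp (-(1 * m)) + t * Real.exp (-(t * m))) := by
  have x1 : Real.exp (-s) ≤ Real.exp 1 * Real.exp (-(1 * m)) := by
    rw [← Real.exp_add]; exact Real.exp_le_exp.2 (by linarith)
  have x2 : Real.exp (-(t * s)) ≤ Real.exp 2 * Real.exp (-(t * m)) := by
    rw [← Real.exp_add]; exact Real.exp_le_exp.2 (by nlinarith)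
  have x3 : Real.exp (-(t * s)) ≤ Real.exp 1 := Real.exp_le_exp.2 (by nlinarith)
  have x4 : Real.exp 2 = Real.exp 1 * Real.exp 1 := by rw [← Real.exp_add]; norm_num
  have z1 := mul_le_mul (mul_le_mul_of_nonneg_right x1 S0) x3 (Real.exp_pos _).le (by positivity)
  have z2 := mul_le_mul_of_nonneg_left x2 t0.le
  rw [add_mul, mul_add]
  refine add_le_add (z1.trans (le_of_eq ?_)) (z2.trans (le_of_eq ?_))
  · rw [x4]; ring
  · ring

theorem ar2 {t S r j m : ℝ} (t0 : 0 < t) (t1 : t ≤ 1 / 4) (S0 : 0 ≤ S) (h1 : m - 1 ≤ r - j) :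
    |Real.exp (-(t * (r - 2 * (j + 1)))) - Real.exp (-(t * (r - 2 * j)))| *
      Real.exp (-(t * (j + 1))) ≤
      4 * Real.exp 1 * (S * Real.exp (-(1 * m)) + t * Real.exp (-(t * m))) := by
  have z1 : Real.exp (-(t * (r - 2 * (j + 1)))) - Real.exp (-(t * (r - 2 * j))) =
      Real.exp (-(t * (r - 2 * j))) * (Real.exp (2 * t) - 1) := by
    rw [mul_sub (Real.exp _), mul_one, ← Real.exp_add]; congr 2; ring
  have z2 := Real.abs_exp_sub_one_le (x := 2 * t) (by rw [abs_of_pos (by linarith)]; linarith)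
  rw [abs_of_pos (show 0 < 2 * t by linarith)] at z2
  have z3 : Real.exp (-(t * (r - 2 * j))) * Real.exp (-(t * (j + 1))) ≤
      Real.exp 1 * Real.exp (-(t * m)) := by
    rw [← Real.exp_add, ← Real.exp_add]
    exact Real.exp_le_exp.2 (by nlinarith)
  rw [z1, abs_mul, abs_of_pos (Real.exp_pos _), mul_right_comm]
  refine (mul_le_mul z3 z2 (abs_nonneg _) (by positivity)).trans ?_
  have z4 : 0 ≤ Real.exp 1 * (S * Real.exp (-(1 * m))) := by positivity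
  linarith

theorem piece {c : ℝ} (hc : 0 ≤ c) : ∃ C : ℝ, 0 ≤ C ∧ ∀ t : ℝ, 0 < t → t ≤ 1 / 4 → ∀ Z : SN h.Y,
    Nq h μ t Z ≠ ∞ → ∀ κ ∈ h.K, ∀ κ' ∈ h.K, ∀ (r i a S : ℝ) (η' η : EE n) (g : C(h.Y, ℂ)), 0 ≤ r →
    0 ≤ i → ‖η‖ ≤ Real.exp i → |a| ≤ 1 → ‖η'‖ ≤ n → ‖η‖ ≤ S → ‖η'‖ ≤ S →
    (∀ ξ, g ξ = (Real.exp (-(t * h.co (κ * h.a r * κ')⁻¹ ξ)) : ℝ) *
      gg h.lam a η' η (du h ((κ * h.a r * κ')⁻¹ • ξ))) → ∀ (j : ℕ) (p : G), j ≤ ⌊r⌋₊ + 1 →
    h.rr (p⁻¹ * (κ * h.a j)) ≤ c → ∀ e₀, e₀ = gg h.lam a η' η (du h ((κ * h.a r * κ')⁻¹ •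
      ((κ * h.w0 : G) : h.Y))) →
    Z.p (UU h t (κ * h.a r * κ') g e₀ (j + 1) - UU h t (κ * h.a r * κ') g e₀ j) ≤
      C * Real.exp ((h.Q + 1 / 2) * i) * ((S * Real.exp (-(1 * (⌊r⌋₊ + 1 - j : ℕ))) +
        t * Real.exp (-(t * (⌊r⌋₊ + 1 - j : ℕ)))) * bw h μ t Z p) := by
  obtain ⟨C₁, R₁, hC₁, hR₁, h1⟩ := pl1 h μ
  obtain ⟨C₂, R₂, hC₂, hR₂, h2⟩ := pl2' h μ
  refine ⟨Real.exp 2 * (C₁ * Real.exp ((h.Q + 1) * (R₁ + c) / 2)) +
    4 * Real.exp 1 * (C₂ * Real.exp ((h.Q + 1) * (R₂ + (c + 1)) / 2)), by positivity,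
    fun t t0 t1 Z hN κ hκ κ' hκ' r i a S η' η g hr hi e1 e2 e3 e4 e5 hg j p hj hp e₀ he => ?_⟩
  have S0 : 0 ≤ S := (norm_nonneg _).trans e4
  have j1 : (j : ℝ) ≤ ⌊r⌋₊ + 1 := by exact_mod_cast hj
  have r1 := Nat.floor_le hr
  rw [Nat.cast_sub hj, Nat.cast_succ]
  set v := κ * h.a r * κ' with hv
  set m : ℝ := ⌊r⌋₊ + 1 - j with hm
  set b := bw h μ t Z p
  have b0 : 0 ≤ b := bw_nonneg h μ t Z p
  set f := (Om h v j - Om h v (j + 1 : ℕ)) * g -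
    ((Real.exp (-(t * (r - 2 * j))) : ℝ) * e₀) • (Om h v j - Om h v (j + 1 : ℕ))
  set d := Real.exp (-(t * (r - 2 * (j + 1 : ℕ)))) - Real.exp (-(t * (r - 2 * j))) with hd
  have e : UU h t v g e₀ (j + 1) - UU h t v g e₀ j =
      -(f + ((d : ℝ) * e₀) • Om h v (j + 1 : ℕ)) := by
    unfold UU
    rw [h.rr_kak hκ hκ' hr, hd, Complex.ofReal_sub]
    simp only [f, sub_mul, sub_smul, smul_sub]
    abel
  have a1 := h1 t t0.le (by linarith) Z κ hκ κ' hκ' r j i (Real.exp (-(r - j)) * S + t) a η' η f hr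
    (by linarith [Nat.cast_nonneg (α := ℝ) j]) (by linarith) hi e1 e2 e3 (by positivity)
    (le_add_of_nonneg_left (by positivity))
    (le_add_of_le_of_nonneg (mul_le_mul_of_nonneg_left e4 (Real.exp_pos _).le) t0.le)
    (le_add_of_le_of_nonneg (mul_le_mul_of_nonneg_left e5 (Real.exp_pos _).le) t0.le) fun ξ => by
      simp only [f, ContinuousMap.sub_apply, ContinuousMap.mul_apply, ContinuousMap.smul_apply,
        Om_apply, hg, om, smul_eq_mul, he]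
      rw [show gm h v ξ - (j + 1 : ℕ) + 1 = gm h v ξ - j by push_cast; ring, Complex.ofReal_sub]
      ring
  have a2 := h2 t t0.le (by linarith) Z κ hκ κ' hκ' r (j + 1 : ℕ) hr (Nat.cast_nonneg _)
  have a3 := bb_le h μ t Z hN hp (i + R₁)
  have a4 := bb_le h μ t Z hN (y := p) (y' := κ * h.a (j + 1 : ℕ)) (c := c + 1) (by
    have := h.rr_mul_le (p⁻¹ * (κ * h.a j)) (h.a 1)
    rw [h.rr_a, abs_one, mul_assoc, mul_assoc, ← h.a_add] at this
    push_cast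
    linarith) R₂
  have y1 := ar1 (s := r - j) (m := m) t0 t1 S0 (by linarith) (by linarith)
  have y2 := ar2 (r := r) (j := j) (m := m) t0 t1 S0 (by linarith)
  rw [← Nat.cast_succ, ← hd] at y2
  set A := S * Real.exp (-(1 * m)) + t * Real.exp (-(t * m)) with hA
  have y3 : Real.exp (h.Q * i / 2) * Real.exp ((h.Q + 1) * (i + R₁ + c) / 2) =
      Real.exp ((h.Q + 1 / 2) * i) * Real.exp ((h.Q + 1) * (R₁ + c) / 2) := by
    rw [← Real.exp_add, ← Real.exp_add]; congr 1; ring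
  have y4 : 1 ≤ Real.exp ((h.Q + 1 / 2) * i) := Real.one_le_exp (by positivity)
  have A0 : 0 ≤ A := by positivity
  have n1 : ‖(d : ℂ) * e₀‖ ≤ |d| := by
    rw [norm_mul, Complex.norm_real, he]
    exact mul_le_of_le_one_right (norm_nonneg _) (norm_gg _ _ _ _ _)
  rw [e, Z.neg]
  refine (Z.add _ _).trans ?_
  rw [Z.smul, add_mul, add_mul]
  refine add_le_add (a1.trans ?_) ((mul_le_mul n1 a2 (Z.nonneg _) (abs_nonneg _)).trans ?_)
  · calc _ ≤ C₁ * Real.exp (h.Q * i / 2) * (Real.exp 2 * A) *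
          (Real.exp ((h.Q + 1) * (i + R₁ + c) / 2) * b) :=
          mul_le_mul (mul_le_mul_of_nonneg_left y1 (by positivity)) a3 (Real.sqrt_nonneg _)
            (by positivity)
      _ = Real.exp 2 * C₁ * (Real.exp (h.Q * i / 2) * Real.exp ((h.Q + 1) * (i + R₁ + c) / 2)) *
          (A * b) := by ring
      _ = _ := by rw [y3]; ring
  · calc _ = C₂ * (|d| * Real.exp (-(t * (j + 1 : ℕ)))) * bb h μ t Z (κ * h.a (j + 1 : ℕ)) R₂ := by
          ring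
      _ ≤ C₂ * (4 * Real.exp 1 * A) * (Real.exp ((h.Q + 1) * (R₂ + (c + 1)) / 2) * b) :=
          mul_le_mul (mul_le_mul_of_nonneg_left y2 hC₂) a4 (Real.sqrt_nonneg _) (by positivity)
      _ = 4 * Real.exp 1 * (C₂ * Real.exp ((h.Q + 1) * (R₂ + (c + 1)) / 2)) * 1 * (A * b) := by
          ring
      _ ≤ _ := by gcongr

theorem tele (t : ℝ) (Z : SN h.Y) (v : G) (g : C(h.Y, ℂ)) {e₀ : ℂ} (he : ‖e₀‖ ≤ 1) {j₀ : ℕ}
    (hj : j₀ ≤ ⌊h.rr v⌋₊ + 1 + 1) (hg : Om h v j₀ * g = g) :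
    Z.p g ≤ Real.exp (-(t * (h.rr v - 2 * j₀))) * Z.p (Om h v j₀) +
      ∑ j ∈ Finset.Ico j₀ (⌊h.rr v⌋₊ + 1 + 1), Z.p (UU h t v g e₀ (j + 1) - UU h t v g e₀ j) := by
  have e := Finset.sum_Ico_sub (UU h t v g e₀) hj
  have e2 : UU h t v g e₀ (⌊h.rr v⌋₊ + 1 + 1) = 0 := by
    rw [UU, Om_zero h v (by push_cast; linarith [Nat.lt_floor_add_one (h.rr v)]), zero_mul,
      smul_zero, sub_zero]
  have e3 : g = ((Real.exp (-(t * (h.rr v - 2 * j₀))) : ℝ) * e₀) • Om h v j₀ +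
      -∑ j ∈ Finset.Ico j₀ (⌊h.rr v⌋₊ + 1 + 1), (UU h t v g e₀ (j + 1) - UU h t v g e₀ j) := by
    rw [e, e2, UU, hg]; abel
  refine (congrArg Z.p e3).le.trans ((Z.add _ _).trans (add_le_add ?_ ?_))
  · rw [Z.smul, norm_mul, Complex.norm_real, Real.norm_eq_abs, abs_of_pos (Real.exp_pos _)]
    exact mul_le_mul_of_nonneg_right (mul_le_of_le_one_right (Real.exp_pos _).le he) (Z.nonneg _)
  · rw [Z.neg]; exact Z.sum_le _ _

/-- the kernel of the Schur test -/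
noncomputable def kz (t : ℝ) (m : ℕ) : ℝ := 1 * Real.exp (-(1 * m)) + t * Real.exp (-(t * m))

theorem sum_kz {t : ℝ} (t0 : 0 < t) (t1 : t ≤ 1) (s : Finset ℕ) (K : ℕ) (hs : ∀ j ∈ s, j ≤ K) :
    ∑ j ∈ s, kz t (K - j) ≤ 4 := by
  simp only [kz, Finset.sum_add_distrib]
  linarith [sum_geo one_pos le_rfl s K hs, sum_geo t0 t1 s K hs]

theorem tsum_kz {t : ℝ} (t0 : 0 < t) (t1 : t ≤ 1) : ∑' m, ENNReal.ofReal (kz t m) ≤ 4 := by
  refine (ENNReal.tsum_le_tsum fun m => ENNReal.ofReal_add_le).trans ?_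
  rw [ENNReal.tsum_add]
  exact (add_le_add (tsum_geo one_pos le_rfl) (tsum_geo t0 t1)).trans (by norm_num)

theorem Om_base (v : G) : Om h v (0 : ℕ) = 1 := by
  ext ξ
  exact Om_one h (by rw [Nat.cast_zero]; exact gm_nonneg h v ξ)

/-- **one wall** -/
theorem wall1 : ∃ C c : ℝ, 0 ≤ C ∧ ∀ t : ℝ, 0 < t → t ≤ 1 / 4 → ∀ Z : SN h.Y, Nq h μ t Z ≠ ∞ →
    ∀ κ ∈ h.K, ∀ κ' ∈ h.K, ∀ X : ℝ, 0 ≤ X → ∀ v : G,
      (∀ (η : EE n) (i : ℝ), 1 + ‖η‖ = Real.exp i → Z.p (TT h t ((κ * h.a X * κ')⁻¹ * v) v η) ≤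
        0 + Real.exp ((h.Q + 3 / 2) * i) * (C * bw h μ t Z v)) ∨
      (h.rr ((κ * h.a ⌊h.rr v⌋₊)⁻¹ * v) ≤ c ∧ ∀ (η : EE n) (i : ℝ), 1 + ‖η‖ = Real.exp i →
        Z.p (TT h t ((κ * h.a X * κ')⁻¹ * v) v η) ≤ Real.exp (-(t * h.rr v)) * Z.p 1 +
          Real.exp ((h.Q + 3 / 2) * i) * (C * ∑ j ∈ Finset.range (⌊h.rr v⌋₊ + 1 + 1),
            kz t (⌊h.rr v⌋₊ + 1 - j) * bw h μ t Z (κ * h.a j))) := by
  obtain ⟨C₁, c, h0, c0, hd⟩ := dich h
  obtain ⟨C, hC, hp⟩ := piece h μ (c := c + C₁ + 1) (by positivity)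
  obtain ⟨C₂, R₂, hC₂, hR₂, h2⟩ := pl2' h μ
  set C₃ := C₂ * Real.exp ((h.Q + 1) * (R₂ + (C₁ + 1)) / 2)
  have hC₃ : 0 ≤ C₃ := by positivity
  refine ⟨4 * (C * (1 + n)) + C₃, c + 1, by positivity, fun t t0 t1 Z hN κ hκ κ' hκ' X hX v => ?_⟩
  obtain ⟨κ₁, hκ₁, κ₂, hκ₂, ev⟩ := h.kak_rr v
  have hr := h.rr_nonneg v
  generalize er : h.rr v = r at ev hr ⊢
  subst ev
  set v := κ₁ * h.a r * κ₂ with hv
  set y := (κ * h.a X * κ')⁻¹ * v
  obtain ⟨l, hl, el⟩ := exists_be h y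
  have key : ∀ (η : EE n) (i : ℝ), 1 + ‖η‖ = Real.exp i → ∀ (j₀ : ℕ) (p : ℕ → G),
      j₀ ≤ ⌊r⌋₊ + 1 + 1 → Om h v j₀ * TT h t y v η = TT h t y v η →
      (∀ j : ℕ, j₀ ≤ j → (j : ℝ) ≤ r + 1 → h.rr ((p j)⁻¹ * (κ₁ * h.a j)) ≤ c + C₁ + 1) →
      Z.p (TT h t y v η) ≤ Real.exp (-(t * (r - 2 * j₀))) * Z.p (Om h v j₀) +
        Real.exp ((h.Q + 3 / 2) * i) * (C * (1 + n) * ∑ j ∈ Finset.Ico j₀ (⌊r⌋₊ + 1 + 1),
          kz t (⌊r⌋₊ + 1 - j) * bw h μ t Z (p j)) := fun η i hi j₀ p h1 h3 h4 => by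
    have i1 : 1 ≤ Real.exp i := by linarith [norm_nonneg η]
    have i0 : 0 ≤ i := Real.one_le_exp_iff.1 i1
    have := tele h t Z v (TT h t y v η) (norm_gg h.lam 0 l η
      (du h (v⁻¹ • ((κ₁ * h.w0 : G) : h.Y)))) (er ▸ h1) h3
    rw [er] at this
    refine this.trans (add_le_add le_rfl ?_)
    rw [Finset.mul_sum, Finset.mul_sum]
    refine Finset.sum_le_sum fun j hj => ?_
    obtain ⟨j1, j2⟩ := Finset.mem_Ico.1 hj
    have j3 : j ≤ ⌊r⌋₊ + 1 := Nat.lt_succ_iff.1 j2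
    have j4 : (j : ℝ) ≤ ⌊r⌋₊ + 1 := by exact_mod_cast j3
    refine (hp t t0 t1 Z hN κ₁ hκ₁ κ₂ hκ₂ r i 0 ((1 + n) * Real.exp i) l η _ hr i0
      (by linarith) (by simp) hl (by nlinarith [Nat.cast_nonneg (α := ℝ) n])
      (by nlinarith [Nat.cast_nonneg (α := ℝ) n]) (fun ξ => ?_) j (p j) j3
      (h4 j j1 (by linarith [Nat.floor_le hr])) _ rfl).trans ?_
    · rw [gg, zero_add, ← el]; rfl
    · have e : Real.exp ((h.Q + 3 / 2) * i) = Real.exp ((h.Q + 1 / 2) * i) * Real.exp i := by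
        rw [← Real.exp_add]; congr 1; ring
      have b0 := bw_nonneg h μ t Z (p j)
      have b1 : 1 ≤ (1 + n) * Real.exp i := by nlinarith [Nat.cast_nonneg (α := ℝ) n]
      rw [e, kz]
      calc _ ≤ C * Real.exp ((h.Q + 1 / 2) * i) * ((((1 + n) * Real.exp i) *
            Real.exp (-(1 * (⌊r⌋₊ + 1 - j : ℕ))) + ((1 + n) * Real.exp i) *
              (t * Real.exp (-(t * (⌊r⌋₊ + 1 - j : ℕ))))) * bw h μ t Z (p j)) := by
            refine mul_le_mul_of_nonneg_left (mul_le_mul_of_nonneg_right (add_le_add le_rfl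
              (le_mul_of_one_le_left (by positivity) b1)) b0) (by positivity)
        _ = _ := by ring
  have E1 : ∀ (η : EE n) (i : ℝ), 1 + ‖η‖ = Real.exp i → 1 ≤ Real.exp ((h.Q + 3 / 2) * i) :=
    fun η i hi => Real.one_le_exp (mul_nonneg (by positivity)
      (Real.one_le_exp_iff.1 (by linarith [norm_nonneg η])))
  rcases hd κ hκ κ' hκ' X hX κ₁ hκ₁ κ₂ hκ₂ r hr with hB | ⟨r1, hA⟩
  · refine Or.inr ⟨?_, fun η i hi => ?_⟩
    · have a1 := hB ⌊r⌋₊ (Nat.cast_nonneg _) (by linarith [Nat.floor_le hr])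
      have a2 := h.rr_mul_le ((κ * h.a ⌊r⌋₊)⁻¹ * (κ₁ * h.a ⌊r⌋₊)) (h.a (r - ⌊r⌋₊) * κ₂)
      rw [h.rr_mul_K _ hκ₂, h.rr_a, abs_of_nonneg (by linarith [Nat.floor_le hr]), mul_assoc,
        mul_assoc κ₁, ← mul_assoc (h.a _), ← h.a_add, add_sub_cancel, ← mul_assoc κ₁] at a2
      linarith [Nat.lt_floor_add_one r]
    · have := key η i hi 0 (fun j => κ * h.a j) (Nat.zero_le _) (by rw [Om_base, one_mul])
        fun j _ hj => by linarith [hB j (Nat.cast_nonneg j) hj]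
      rw [Om_base, Nat.cast_zero, mul_zero, sub_zero, ← Finset.range_eq_Ico] at this
      refine this.trans (add_le_add le_rfl (mul_le_mul_of_nonneg_left (mul_le_mul_of_nonneg_right
        (by linarith [show 0 ≤ C * (1 + n) by positivity]) (Finset.sum_nonneg fun j _ =>
          mul_nonneg (by unfold kz; positivity) (bw_nonneg _ _ _ _ _))) (Real.exp_pos _).le))
  · refine Or.inl fun η i hi => ?_
    have j1 := Nat.floor_le (show 0 ≤ r - C₁ by linarith)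
    have j2 := Nat.lt_floor_add_one (r - C₁)
    have rv : ∀ j : ℝ, h.rr (v⁻¹ * (κ₁ * h.a j)) = |j - r| := fun j => by
      rw [show v⁻¹ * (κ₁ * h.a j) = κ₂⁻¹ * h.a (-r + j) by rw [h.a_add, h.a_neg, hv]; group,
        h.rr_K_mul (h.K.inv_mem hκ₂), h.rr_a, neg_add_eq_sub]
    have b0 := bw_nonneg h μ t Z v
    have := key η i hi ⌊r - C₁⌋₊ (fun _ => v) ((Nat.floor_le_floor (by linarith)).trans
      (Nat.le_add_right _ 2)) (by
        ext ξ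
        by_cases e : ps h.lam (be h y (v⁻¹ • ξ)) = 0
        · have : TT h t y v η ξ = 0 := by
            rw [TT, act_apply, ContinuousMap.mul_apply, sh_apply, e]; simp
          rw [ContinuousMap.mul_apply, this, mul_zero]
        · rw [ContinuousMap.mul_apply, Om_one h (j1.trans (hA ξ (lt_bo h e))), one_mul])
      fun j hj hj' => by
        have : (⌊r - C₁⌋₊ : ℝ) ≤ j := Nat.cast_le.2 hj
        rw [rv]
        exact abs_le.2 ⟨by linarith, by linarith⟩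
    refine this.trans ?_
    have a1 := h2 t t0.le (by linarith) Z κ₁ hκ₁ κ₂ hκ₂ r ⌊r - C₁⌋₊ hr (Nat.cast_nonneg _)
    have a2 := bb_le h μ t Z hN (y := v) (y' := κ₁ * h.a ⌊r - C₁⌋₊) (c := C₁ + 1)
      (by rw [rv]; exact abs_le.2 ⟨by linarith, by linarith⟩) R₂
    have a3 : Real.exp (-(t * (r - 2 * ⌊r - C₁⌋₊))) * Real.exp (-(t * ⌊r - C₁⌋₊)) ≤ 1 := by
      rw [← Real.exp_add]
      exact Real.exp_le_one_iff.2 (by nlinarith)
    have a4 : Real.exp (-(t * (r - 2 * ⌊r - C₁⌋₊))) * Z.p (Om h v ⌊r - C₁⌋₊) ≤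
        C₃ * bw h μ t Z v := by
      calc _ ≤ Real.exp (-(t * (r - 2 * ⌊r - C₁⌋₊))) * (C₂ * Real.exp (-(t * ⌊r - C₁⌋₊)) *
            (Real.exp ((h.Q + 1) * (R₂ + (C₁ + 1)) / 2) * bw h μ t Z v)) :=
            mul_le_mul_of_nonneg_left (a1.trans (mul_le_mul_of_nonneg_left a2 (by positivity)))
              (Real.exp_pos _).le
        _ = (Real.exp (-(t * (r - 2 * ⌊r - C₁⌋₊))) * Real.exp (-(t * ⌊r - C₁⌋₊))) *
            (C₃ * bw h μ t Z v) := by simp only [C₃]; ring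
        _ ≤ _ := mul_le_of_le_one_left (by positivity) a3
    have a5 := sum_kz t0 (by linarith) (Finset.Ico ⌊r - C₁⌋₊ (⌊r⌋₊ + 1 + 1)) (⌊r⌋₊ + 1)
      fun j hj => Nat.lt_succ_iff.1 (Finset.mem_Ico.1 hj).2
    rw [← Finset.sum_mul]
    have a6 := mul_le_mul_of_nonneg_right (E1 η i hi) (show 0 ≤ C₃ * bw h μ t Z v by positivity)
    have a7 := mul_le_mul_of_nonneg_left (mul_le_mul_of_nonneg_left
      (mul_le_mul_of_nonneg_right a5 b0) (show 0 ≤ C * (1 + n) by positivity))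
      (Real.exp_pos ((h.Q + 3 / 2) * i)).le
    nlinarith

theorem int_le : ∃ I : ℝ, 0 ≤ I ∧ ∀ (t : ℝ) (y v : G) (Z : SN h.Y) (M₀ M₁ : ℝ), 0 ≤ M₀ → 0 ≤ M₁ →
    (∀ (η : EE n) (i : ℝ), 1 + ‖η‖ = Real.exp i →
      Z.p (TT h t y v η) ≤ M₀ + Real.exp ((h.Q + 3 / 2) * i) * M₁) →
    ∫ η, Z.p (TT h t y v η) ^ 2 * wt (MM h) η ≤ I * (M₀ ^ 2 + M₁ ^ 2) := by
  have hI := integrable_wt (F := EE n) (M := MM h) (P := 2 * h.Q + 3)
    (by rw [finrank_EE h]; unfold MM; omega)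
  refine ⟨2 * ∫ η : EE n, (1 + ‖η‖) ^ (2 * h.Q + 3) * wt (MM h) η, mul_nonneg zero_le_two
    (integral_nonneg fun η => mul_nonneg (by positivity) (wt_pos _ _).le),
    fun t y v Z M₀ M₁ h0 h1 h2 => ?_⟩
  rw [mul_right_comm, ← integral_const_mul]
  refine integral_mono (integrable_qw h t y v Z) (hI.const_mul _) fun η => ?_
  have p1 : 1 ≤ 1 + ‖η‖ := le_add_of_nonneg_right (norm_nonneg _)
  have a1 := h2 η (Real.log (1 + ‖η‖)) (Real.exp_log (by positivity)).symm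
  have a2 : Real.exp ((h.Q + 3 / 2) * Real.log (1 + ‖η‖)) ^ 2 = (1 + ‖η‖) ^ (2 * h.Q + 3) := by
    conv_rhs => rw [← Real.exp_log (show 0 < 1 + ‖η‖ by positivity)]
    rw [← Real.exp_nat_mul, ← Real.exp_nat_mul]
    congr 1
    push_cast
    ring
  have a3 : 1 ≤ (1 + ‖η‖) ^ (2 * h.Q + 3) := one_le_pow₀ p1
  simp only
  rw [← mul_assoc]
  refine mul_le_mul_of_nonneg_right ((pow_le_pow_left₀ (Z.nonneg _) a1 2).trans ?_) (wt_pos _ _).le
  rw [← a2] at a3 ⊢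
  generalize Real.exp ((h.Q + 3 / 2) * Real.log (1 + ‖η‖)) = E at a3
  nlinarith [sq_nonneg (M₀ - E * M₁), mul_le_mul_of_nonneg_left a3 (sq_nonneg M₀)]

theorem sq_sum_le (s : Finset ℕ) {k b : ℕ → ℝ} (hk : ∀ j, 0 ≤ k j) {c : ℝ}
    (hc : ∑ j ∈ s, k j ≤ c) : (∑ j ∈ s, k j * b j) ^ 2 ≤ c * ∑ j ∈ s, k j * b j ^ 2 :=
  (Finset.sum_sq_le_sum_mul_sum_of_sq_eq_mul s (fun j _ => hk j)
    (fun j _ => mul_nonneg (hk j) (sq_nonneg _)) fun j _ => by ring).trans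
    (mul_le_mul_of_nonneg_right hc (Finset.sum_nonneg fun j _ => mul_nonneg (hk j) (sq_nonneg _)))

theorem ofReal_sum_le (t : ℝ) (Z : SN h.Y) (s : Finset ℕ) {k : ℕ → ℝ} (hk : ∀ j, 0 ≤ k j)
    (p : ℕ → G) : ENNReal.ofReal (∑ j ∈ s, k j * bw h μ t Z (p j) ^ 2) ≤
      ∑ j ∈ s, ENNReal.ofReal (k j) * Bq h μ t Z (p j) := by
  rw [ENNReal.ofReal_sum_of_nonneg fun j _ => mul_nonneg (hk j) (sq_nonneg _)]
  refine Finset.sum_le_sum fun j _ => ?_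
  rw [ENNReal.ofReal_mul (hk j)]
  exact mul_le_mul_right (bw_sq h μ t Z _) _

/-- the walls -/
theorem walls : ∃ C : ℝ≥0∞, C ≠ ∞ ∧ ∀ t : ℝ, 0 < t → t ≤ 1 / 4 → ∀ Z : SN h.Y, Nq h μ t Z ≠ ∞ →
    ∀ x : G, Nq h μ t (Z.comp (act h t x)) ≤ C * NN h μ t Z := by
  obtain ⟨C, c, hC, h1⟩ := wall1 h μ
  obtain ⟨I, hI, h2⟩ := int_le h
  obtain ⟨c₁, h3⟩ := lint_Bq h μ
  set D := ENNReal.ofReal (I * (1 + 4 * C ^ 2))
  set V := μ {v | h.rr v ≤ c}
  have hV : V ≠ ∞ := (h.isCompact_ball c).measure_lt_top.ne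
  refine ⟨D * (eo c₁ + V * (4 * (eo 1 * 4)) + V * 4), ENNReal.mul_ne_top ENNReal.ofReal_ne_top
    (ENNReal.add_ne_top.2 ⟨ENNReal.add_ne_top.2 ⟨eo_ne_top _, ENNReal.mul_ne_top hV
      (ENNReal.mul_ne_top (by norm_num) (ENNReal.mul_ne_top (eo_ne_top _) (by norm_num)))⟩,
      ENNReal.mul_ne_top hV (by norm_num)⟩), fun t t0 t1 Z hN x => ?_⟩
  obtain ⟨κ, hκ, κ', hκ', ex⟩ := h.kak_rr x
  have k0 : ∀ m, 0 ≤ kz t m := fun m => by unfold kz; positivity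
  set M := ENNReal.ofReal (t⁻¹ * Z.p 1 ^ 2)
  set F : ℕ → ℝ≥0∞ := fun m => ENNReal.ofReal (kz t m) * M +
    ∑ j ∈ Finset.range (m + 1 + 1), ENNReal.ofReal (kz t (m + 1 - j)) * Bq h μ t Z (κ * h.a j)
  have a1 : ∀ v, ENNReal.ofReal (qw h t (x⁻¹ * v) (Z.comp (act h t x))) ≤ D * (Bq h μ t Z v +
      ∑' m : ℕ, {v | h.rr ((κ * h.a m)⁻¹ * v) ≤ c}.indicator (fun _ => F m) v) := fun v => by
    have e : qw h t (x⁻¹ * v) (Z.comp (act h t x)) =
        ∫ η, Z.p (TT h t (x⁻¹ * v) v η) ^ 2 * wt (MM h) η := by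
      rw [qw_eq]
      refine integral_congr_ae (Eventually.of_forall fun η => ?_)
      show Z.p (act h t x _) ^ 2 * _ = _
      rw [act_TT, mul_inv_cancel_left]
    have b0 := bw_nonneg h μ t Z v
    rw [e]
    rcases h1 t t0 t1 Z hN κ hκ κ' hκ' _ (h.rr_nonneg x) v with hA | ⟨hv, hB⟩
    · rw [← ex] at hA
      refine (ENNReal.ofReal_le_ofReal ((h2 t _ v Z 0 _ le_rfl (by positivity) hA).trans
        (show _ ≤ I * (1 + 4 * C ^ 2) * bw h μ t Z v ^ 2 from ?_))).trans ?_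
      · rw [mul_assoc]
        exact mul_le_mul_of_nonneg_left (by nlinarith [sq_nonneg (C * bw h μ t Z v)]) hI
      · rw [ENNReal.ofReal_mul (by positivity)]
        exact mul_le_mul_right ((bw_sq h μ t Z v).trans le_self_add) _
    · rw [← ex] at hB
      set m := ⌊h.rr v⌋₊
      set S := ∑ j ∈ Finset.range (m + 1 + 1), kz t (m + 1 - j) * bw h μ t Z (κ * h.a j) ^ 2
      have S0 : 0 ≤ S := Finset.sum_nonneg fun j _ => mul_nonneg (k0 _) (sq_nonneg _)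
      have b1 := sq_sum_le (Finset.range (m + 1 + 1)) (b := fun j => bw h μ t Z (κ * h.a j))
        (fun j => k0 (m + 1 - j)) (sum_kz t0 (by linarith) _ (m + 1)
          fun j hj => Nat.lt_succ_iff.1 (Finset.mem_range.1 hj))
      have b2 : (Real.exp (-(t * h.rr v)) * Z.p 1) ^ 2 ≤ kz t m * (t⁻¹ * Z.p 1 ^ 2) := by
        have c1 : Real.exp (-(t * h.rr v)) ^ 2 ≤ kz t m * t⁻¹ := by
          rw [← div_eq_mul_inv, le_div_iff₀ t0, ← Real.exp_nat_mul, kz, mul_comm]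
          refine le_add_of_nonneg_of_le (by positivity) (mul_le_mul_of_nonneg_left
            (Real.exp_le_exp.2 ?_) t0.le)
          push_cast
          nlinarith [Nat.floor_le (h.rr_nonneg v), h.rr_nonneg v]
        rw [mul_pow, ← mul_assoc]
        exact mul_le_mul_of_nonneg_right c1 (sq_nonneg _)
      have b3 : 0 ≤ kz t m * (t⁻¹ * Z.p 1 ^ 2) := mul_nonneg (k0 _) (by positivity)
      refine (ENNReal.ofReal_le_ofReal ((h2 t _ v Z _ _ (mul_nonneg (Real.exp_pos _).le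
        (Z.nonneg _)) (mul_nonneg hC (Finset.sum_nonneg fun j _ => mul_nonneg (k0 _)
          (bw_nonneg _ _ _ _ _))) hB).trans
        (show _ ≤ I * (1 + 4 * C ^ 2) * (kz t m * (t⁻¹ * Z.p 1 ^ 2) + S) from ?_))).trans ?_
      · rw [mul_assoc, mul_pow C]
        refine mul_le_mul_of_nonneg_left ?_ hI
        nlinarith [mul_le_mul_of_nonneg_left b1 (sq_nonneg C), mul_nonneg (sq_nonneg C) b3]
      · rw [ENNReal.ofReal_mul (by positivity)]
        refine mul_le_mul_right (le_add_left (le_trans ?_ (ENNReal.le_tsum m))) _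
        rw [Set.indicator_of_mem (show v ∈ {v | h.rr ((κ * h.a m)⁻¹ * v) ≤ c} from hv)]
        refine ENNReal.ofReal_add_le.trans (add_le_add (ENNReal.ofReal_mul (k0 _)).le ?_)
        exact ofReal_sum_le h μ t Z _ (fun j => k0 (m + 1 - j)) fun j => κ * h.a j
  have a2 : ∑' m, F m ≤ 4 * M + 4 * (eo 1 * 4 * Nq h μ t Z) := by
    rw [ENNReal.tsum_add, ENNReal.tsum_mul_right]
    exact add_le_add (mul_le_mul_left (tsum_kz t0 (by linarith)) _)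
      ((conv_le (fun m => ENNReal.ofReal (kz t m)) fun j => Bq h μ t Z (κ * h.a j)).trans
        (mul_le_mul' (tsum_kz t0 (by linarith)) (tsum_Bq h μ t Z hκ)))
  rw [Nq, ← lintegral_mul_left_eq_self (μ := μ) _ x⁻¹]
  refine (lintegral_mono a1).trans ?_
  rw [lintegral_const_mul' _ _ ENNReal.ofReal_ne_top, lintegral_add_left (meas_Bq h μ t Z),
    lint_balls h μ (fun m => κ * h.a m) (fun _ => c) F, ENNReal.tsum_mul_right, mul_assoc]
  refine mul_le_mul_right ((add_le_add (h3 t Z) (mul_le_mul_left a2 _)).trans ?_) _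
  calc _ = (eo c₁ + V * (4 * (eo 1 * 4))) * Nq h μ t Z + V * 4 * M := by ring
    _ ≤ _ := by
      rw [add_mul _ (V * 4)]
      exact add_le_add (mul_le_mul_right le_self_add _) (mul_le_mul_right le_add_self _)

/-- the mass -/
theorem mass : ∃ C : ℝ≥0∞, C ≠ ∞ ∧ ∀ t : ℝ, 0 < t → t ≤ 1 / 4 → ∀ Z : SN h.Y, Nq h μ t Z ≠ ∞ →
    ∀ x : G, ENNReal.ofReal (t⁻¹ * Z.p (act h t x 1) ^ 2) ≤ C * NN h μ t Z := by
  obtain ⟨C, hC, hp⟩ := piece h μ (c := 0) le_rfl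
  refine ⟨ENNReal.ofReal (2 + 4 * C ^ 2) * (eo 1 * 4 + 1), ENNReal.mul_ne_top
    ENNReal.ofReal_ne_top (ENNReal.add_ne_top.2 ⟨ENNReal.mul_ne_top (eo_ne_top _) (by norm_num),
      ENNReal.one_ne_top⟩), fun t t0 t1 Z hN x => ?_⟩
  obtain ⟨κ, hκ, κ', hκ', ex⟩ := h.kak_rr x
  have hr := h.rr_nonneg x
  generalize er : h.rr x = r at ex hr
  subst ex
  set x := κ * h.a r * κ'
  set K := ⌊r⌋₊ + 1
  have a1 := tele h t Z x (act h t x 1) (norm_gg h.lam 1 0 0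
    (du h (x⁻¹ • ((κ * h.w0 : G) : h.Y)))) (Nat.zero_le _) (by rw [Om_base, one_mul])
  rw [er, Om_base, ← Finset.range_eq_Ico] at a1
  set k : ℕ → ℝ := fun j => t * Real.exp (-(t * (K - j : ℕ)))
  have k0 : ∀ j, 0 ≤ k j := fun j => by positivity
  have a2 : Z.p (act h t x 1) ≤
      Z.p 1 + C * ∑ j ∈ Finset.range (K + 1), k j * bw h μ t Z (κ * h.a j) := by
    refine a1.trans (add_le_add (mul_le_of_le_one_left (Z.nonneg _)
      (Real.exp_le_one_iff.2 (by simpa using mul_nonneg t0.le hr))) ?_)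
    rw [Finset.mul_sum]
    refine Finset.sum_le_sum fun j hj => (hp t t0 t1 Z hN κ hκ κ' hκ' r 0 1 0 0 0 _ hr le_rfl
      (by simp) (by simp) (by simp) (by simp) (by simp) (fun ξ => ?_) j (κ * h.a j)
      (Nat.lt_succ_iff.1 (Finset.mem_range.1 hj)) (by rw [inv_mul_cancel, h.rr_one]) _ rfl).trans
      (le_of_eq ?_)
    · rw [gg_one, inner_zero_left, ee_zero]; rfl
    · rw [mul_zero, Real.exp_zero, mul_one, zero_mul, zero_add]
  set S := ∑ j ∈ Finset.range (K + 1), 1 * bw h μ t Z (κ * h.a j) ^ 2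
  have S0 : 0 ≤ S := Finset.sum_nonneg fun j _ => by positivity
  have a3 := (sq_sum_le (Finset.range (K + 1)) (b := fun j => bw h μ t Z (κ * h.a j)) k0
    (sum_geo t0 (by linarith) _ K fun j hj => Nat.lt_succ_iff.1 (Finset.mem_range.1 hj))).trans
    (show _ ≤ 2 * (t * S) from mul_le_mul_of_nonneg_left (by
      rw [Finset.mul_sum]
      refine Finset.sum_le_sum fun j _ => ?_
      rw [one_mul]
      exact mul_le_mul_of_nonneg_right (mul_le_of_le_one_right t0.le (Real.exp_le_one_iff.2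
        (neg_nonpos.2 (by positivity)))) (sq_nonneg _)) zero_le_two)
  have a4 : t⁻¹ * Z.p (act h t x 1) ^ 2 ≤ (2 + 4 * C ^ 2) * (S + t⁻¹ * Z.p 1 ^ 2) := by
    have b1 := pow_le_pow_left₀ (Z.nonneg _) a2 2
    generalize ∑ j ∈ Finset.range (K + 1), k j * bw h μ t Z (κ * h.a j) = T at b1 a3
    have b2 : Z.p (act h t x 1) ^ 2 ≤ 2 * Z.p 1 ^ 2 + t * (4 * C ^ 2 * S) := by
      nlinarith [sq_nonneg (Z.p 1 - C * T), mul_le_mul_of_nonneg_left a3 (sq_nonneg C)]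
    have b3 := mul_le_mul_of_nonneg_left b2 (inv_pos.2 t0).le
    rw [mul_add, inv_mul_cancel_left₀ t0.ne'] at b3
    nlinarith [mul_nonneg (sq_nonneg C) (mul_nonneg (inv_pos.2 t0).le (sq_nonneg (Z.p 1)))]
  refine (ENNReal.ofReal_le_ofReal a4).trans ?_
  rw [ENNReal.ofReal_mul (by positivity), mul_assoc]
  refine mul_le_mul_right (ENNReal.ofReal_add_le.trans ?_) _
  rw [add_mul, one_mul]
  refine add_le_add ((ofReal_sum_le h μ t Z _ (k := fun _ => 1) (fun _ => zero_le_one)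
    fun j => κ * h.a j).trans ?_) le_add_self
  simp only [ENNReal.ofReal_one, one_mul]
  exact (ENNReal.sum_le_tsum _).trans ((tsum_Bq h μ t Z hκ).trans (mul_le_mul_right le_self_add _))

/-- **(EQ)** -/
theorem eq_all : EQ h μ := by
  obtain ⟨C₁, h1, w1⟩ := walls h μ
  obtain ⟨C₂, h2, w2⟩ := mass h μ
  refine ⟨(C₁ + C₂).toReal + 1, by positivity, fun t t0 t1 x Z => ?_⟩
  rw [ENNReal.ofReal_add ENNReal.toReal_nonneg zero_le_one,
    ENNReal.ofReal_toReal (ENNReal.add_ne_top.2 ⟨h1, h2⟩), ENNReal.ofReal_one]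
  by_cases hN : Nq h μ t Z = ∞
  · have : NN h μ t Z = ∞ := top_le_iff.1 (hN.ge.trans le_self_add)
    rw [this, ENNReal.mul_top (by simp)]
    exact le_top
  · refine (add_le_add (w1 t t0 t1 Z hN x) (w2 t t0 t1 Z hN x)).trans ?_
    rw [← add_mul]
    exact mul_le_mul_left le_self_add _

end Vale.Agent.P092RQ
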